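import Vale.Agent.P248Z.Geo.Simplex

/-!
# P248, geometric block: from angles to real parts
-/

open MeasureTheory Matrix Set

namespace Vale.Agent.P248Z.Geo

/-- The angles for which the point with `b (I k) z = F (exp (θ k i))` has all `b j z` in the image
of the closed disc. -/
def Theta {n N : ℕ} (F : ℂ → ℂ) (b : Fin N → Fin n → ℝ) (I : Fin n → Fin N) : Set (Fin n → ℝ) :=
  {θ | (∀ k, θ k ∈ Icc (-Real.pi) Real.pi) ∧ ∃ z : Fin n → ℂ,
    (∀ k, ∑ l, (b (I k) l : ℂ) * z l = F (Complex.exp (θ k * Complex.I))) ∧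
    ∀ j, ∑ l, (b j l : ℂ) * z l ∈ F '' Metric.closedBall 0 1}

/-- The analytic input in terms of angles. -/
def InputTheta (F : ℂ → ℂ) (n : ℕ) : Prop :=
  ∀ (N : ℕ) (b : Fin N → Fin n → ℝ), (∀ x : Fin n → ℝ, (∀ j, b j ⬝ᵥ x = 0) → x = 0) →
    ENNReal.ofReal ((2 * Real.pi) ^ n) ≤ ∑ I : Fin n ↪o Fin N,
      if (Matrix.of fun k l => b (I k) l).det ≠ 0 then volume (Theta F b I) else 0

/-- What the geometric block uses about the conformal map and its lens. -/
structure LensData (F : ℂ → ℂ) (lam : ℝ → ℝ) : Prop where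
  incl : ∀ w ∈ Metric.closedBall (0 : ℂ) 1, |(F w).re| ≤ 1 ∧ |(F w).im| ≤ lam (F w).re
  re : ∀ t : ℝ, |t| ≤ Real.pi → (F (Complex.exp (t * Complex.I))).re = 1 - 2 * |t| / Real.pi
  im_pos : ∀ t : ℝ, 0 ≤ t → t ≤ Real.pi →
    (F (Complex.exp (t * Complex.I))).im = lam (1 - 2 * |t| / Real.pi)
  im_neg : ∀ t : ℝ, -Real.pi ≤ t → t ≤ 0 →
    (F (Complex.exp (t * Complex.I))).im = -lam (1 - 2 * |t| / Real.pi)

theorem re_sum {n : ℕ} (a : Fin n → ℝ) (z : Fin n → ℂ) :
    (∑ l, (a l : ℂ) * z l).re = a ⬝ᵥ fun l => (z l).re := by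
  simp [dotProduct, Complex.re_sum]

theorem im_sum {n : ℕ} (a : Fin n → ℝ) (z : Fin n → ℂ) :
    (∑ l, (a l : ℂ) * z l).im = a ⬝ᵥ fun l => (z l).im := by
  simp [dotProduct, Complex.im_sum]

variable {n N : ℕ} {F : ℂ → ℂ} {lam : ℝ → ℝ}

/-- The affine map from real parts to angles, for given signs. -/
noncomputable def angMat (b : Fin N → Fin n → ℝ) (I : Fin n → Fin N) (eps : Fin n → Bool) :
    Matrix (Fin n) (Fin n) ℝ :=
  (-(Real.pi / 2)) • Matrix.of fun k => sg (eps k) • rows b I k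

theorem Theta_subset (h : LensData F lam) (b : Fin N → Fin n → ℝ) (I : Fin n → Fin N) :
    Theta F b I ⊆ ⋃ eps : Fin n → Bool, (fun u => (fun k => sg (eps k) * (Real.pi / 2)) + u) ''
      (Matrix.toLin' (angMat b I eps) '' Feas lam b I eps) := by
  rintro θ ⟨hθ, z, hz, hj⟩
  have hpi := Real.pi_pos
  have habs : ∀ k, |θ k| ≤ Real.pi := fun k => abs_le.2 (hθ k)
  have hre : ∀ k, b (I k) ⬝ᵥ (fun l => (z l).re) = 1 - 2 * |θ k| / Real.pi := fun k => by
    rw [← re_sum, hz k, h.re _ (habs k)]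
  refine mem_iUnion.2 ⟨fun k => decide (0 ≤ θ k), _, ⟨fun l => (z l).re,
    ⟨fun j => ?_, fun l => (z l).im, fun j => ?_, fun k => ?_⟩, rfl⟩, ?_⟩
  · obtain ⟨w, hw, e⟩ := hj j
    rw [← re_sum, ← e]
    exact (h.incl w hw).1
  · obtain ⟨w, hw, e⟩ := hj j
    rw [← re_sum, ← im_sum, ← e]
    exact (h.incl w hw).2
  · rw [hre k, ← im_sum, hz k]
    rcases le_or_gt 0 (θ k) with h0 | h0
    · rw [h.im_pos _ h0 (hθ k).2]
      simp [sg, h0]
    · rw [h.im_neg _ (hθ k).1 h0.le]
      simp [sg, not_le.2 h0]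
  · funext k
    have e : Matrix.toLin' (angMat b I fun k => decide (0 ≤ θ k)) (fun l => (z l).re) k =
        -(Real.pi / 2) * (sg (decide (0 ≤ θ k)) * (b (I k) ⬝ᵥ fun l => (z l).re)) := by
      rw [Matrix.toLin'_apply, angMat, Matrix.smul_mulVec, Pi.smul_apply, smul_eq_mul]
      congr 1
      exact smul_dotProduct (sg (decide (0 ≤ θ k))) (b (I k)) fun l => (z l).re
    beta_reduce
    rw [Pi.add_apply, e, hre k]
    rcases le_or_gt 0 (θ k) with h0 | h0
    · simp only [sg, h0, decide_true, if_true, abs_of_nonneg h0]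
      field_simp
      ring
    · simp only [sg, not_le.2 h0, decide_false, abs_of_neg h0]
      simp only [Bool.false_eq_true, if_false]
      field_simp
      ring

theorem volume_Theta_le (h : LensData F lam) (b : Fin N → Fin n → ℝ) (I : Fin n → Fin N) :
    volume (Theta F b I) ≤ ENNReal.ofReal ((Real.pi / 2) ^ n) * ∑ eps : Fin n → Bool,
      ENNReal.ofReal |(rows b I).det| * volume (Feas lam b I eps) := by
  refine (measure_mono (Theta_subset h b I)).trans ((measure_iUnion_fintype_le _ _).trans ?_)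
  rw [Finset.mul_sum]
  refine Finset.sum_le_sum fun eps _ => le_of_eq ?_
  rw [image_add_left, measure_preimage_add, Measure.addHaar_image_linearMap, LinearMap.det_toLin',
    angMat, Matrix.det_smul, abs_mul, abs_det_sg, abs_pow, abs_neg,
    abs_of_pos (half_pos Real.pi_pos), Fintype.card_fin, ENNReal.ofReal_mul (by positivity),
    mul_assoc]

theorem input_of_theta (h : LensData F lam) (hT : InputTheta F n) : Input lam n := by
  intro N b hb
  have h1 := hT N b hb
  have h2 : ∑ I : Fin n ↪o Fin N,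
      (if (Matrix.of fun k l => b (I k) l).det ≠ 0 then volume (Theta F b I) else 0) ≤
      ENNReal.ofReal ((Real.pi / 2) ^ n) * ∑ I : Fin n ↪o Fin N, ∑ eps : Fin n → Bool,
        ENNReal.ofReal |(rows b I).det| * volume (Feas lam b I eps) := by
    rw [Finset.mul_sum]
    refine Finset.sum_le_sum fun I _ => ?_
    split_ifs
    · exact volume_Theta_le h b I
    · exact zero_le
  have e : ENNReal.ofReal ((2 * Real.pi) ^ n) = ENNReal.ofReal ((Real.pi / 2) ^ n) * 4 ^ n := by
    have : (2 * Real.pi) ^ n = (Real.pi / 2) ^ n * 4 ^ n := by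
      rw [← mul_pow]
      congr 1
      ring
    rw [this, ENNReal.ofReal_mul (by positivity), ENNReal.ofReal_pow (by norm_num : (0 : ℝ) ≤ 4)]
    simp
  rw [e] at h1
  refine (ENNReal.mul_le_mul_iff_right ?_ ENNReal.ofReal_ne_top).1 (h1.trans h2)
  exact (ENNReal.ofReal_pos.2 (by have := Real.pi_pos; positivity)).ne'

end Vale.Agent.P248Z.Geo
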