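import Vale.Agent.P248Z.Geo.Pi
import Vale.Agent.P248Z.Geo.Theta
import Mathlib.MeasureTheory.Measure.Haar.InnerProductSpace
import Mathlib.Analysis.LocallyConvex.Separation
import Mathlib.Analysis.InnerProductSpace.Dual

/-!
# P248, geometric block: the inequality and the contact property in Euclidean space
-/

open MeasureTheory Matrix Set Filter Topology WithLp

namespace Vale.Agent.P248Z.Geo

variable {n : ℕ} {lam : ℝ → ℝ} {K : Set (EuclideanSpace ℝ (Fin n))}

/-- The polar body. -/
def polE (K : Set (EuclideanSpace ℝ (Fin n))) : Set (EuclideanSpace ℝ (Fin n)) :=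
  {y | ∀ x ∈ K, inner ℝ y x ≤ 1}

/-- The contact property of the pair `(x, v)` for the body `L`. -/
def ContactE (lam : ℝ → ℝ) (L : Set (EuclideanSpace ℝ (Fin n)))
    (x v : EuclideanSpace ℝ (Fin n)) : Prop :=
  ∃ y : EuclideanSpace ℝ (Fin n), (∀ b ∈ L, inner ℝ b y ≤ lam (inner ℝ b x)) ∧
    ∃ (β : Fin n → EuclideanSpace ℝ (Fin n)) (c : Fin n → ℝ),
      (∀ k, β k ∈ L ∧ 0 ≤ c k ∧ inner ℝ (β k) y = lam (inner ℝ (β k) x)) ∧ ∑ k, c k ≤ 1 ∧
      v = ∑ k, c k • β k

/-- A symmetric convex body. -/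
structure SymBody (K : Set (EuclideanSpace ℝ (Fin n))) : Prop where
  compact : IsCompact K
  convex : Convex ℝ K
  int : (interior K).Nonempty
  symm : ∀ x ∈ K, -x ∈ K

theorem inner_eq_dot (a b : EuclideanSpace ℝ (Fin n)) : inner ℝ a b = ofLp a ⬝ᵥ ofLp b := by
  rw [EuclideanSpace.inner_eq_star_dotProduct, star_trivial, dotProduct_comm]

theorem SymBody.zero_mem_interior (h : SymBody K) : (0 : EuclideanSpace ℝ (Fin n)) ∈ interior K := by
  obtain ⟨x, hx⟩ := h.int
  have hx' : -x ∈ K := h.symm x (interior_subset hx)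
  have := h.convex.add_smul_sub_mem_interior hx' hx (t := 1 / 2) ⟨by norm_num, by norm_num⟩
  have e : -x + (1 / 2 : ℝ) • (x - -x) = 0 := by
    rw [sub_neg_eq_add, ← two_smul ℝ x, smul_smul]
    norm_num
  rwa [e] at this

theorem volume_preimage_toLp {S : Set (EuclideanSpace ℝ (Fin n))} (hS : MeasurableSet S) :
    volume (toLp 2 ⁻¹' S : Set (Fin n → ℝ)) = volume S :=
  (PiLp.volume_preserving_toLp (Fin n)).measure_preimage hS.nullMeasurableSet

theorem isClosed_polE (K : Set (EuclideanSpace ℝ (Fin n))) : IsClosed (polE K) := by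
  have : polE K = ⋂ x ∈ K, {y | inner ℝ y x ≤ 1} := by
    ext y
    simp [polE]
  rw [this]
  exact isClosed_biInter fun x _ => isClosed_le (by fun_prop) continuous_const

theorem pol_preimage (K : Set (EuclideanSpace ℝ (Fin n))) :
    pol (toLp 2 ⁻¹' K : Set (Fin n → ℝ)) = toLp 2 ⁻¹' polE K := by
  ext x
  constructor
  · intro h a ha
    rw [real_inner_comm, inner_eq_dot]
    exact h (ofLp a) ha
  · intro h a ha
    have := h (toLp 2 a) ha
    rwa [real_inner_comm, inner_eq_dot] at this

theorem SymBody.pi (h : SymBody K) : IsCompact (toLp 2 ⁻¹' K : Set (Fin n → ℝ)) ∧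
    Convex ℝ (toLp 2 ⁻¹' K : Set (Fin n → ℝ)) ∧
    (∀ a ∈ (toLp 2 ⁻¹' K : Set (Fin n → ℝ)), -a ∈ (toLp 2 ⁻¹' K : Set (Fin n → ℝ))) ∧
    (0 : Fin n → ℝ) ∈ interior (toLp 2 ⁻¹' K : Set (Fin n → ℝ)) := by
  let e := (PiLp.continuousLinearEquiv 2 ℝ fun _ : Fin n => ℝ).symm
  refine ⟨e.toHomeomorph.isCompact_preimage.2 h.compact,
    h.convex.linear_preimage e.toLinearEquiv.toLinearMap, fun a ha => h.symm _ ha, ?_⟩
  exact preimage_interior_subset_interior_preimage e.continuous h.zero_mem_interior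

/-- (G1) The inequality. -/
theorem SymBody.le_volume_mul (h : SymBody K) (hl : Profile lam) (hA : Input lam n) :
    ENNReal.ofReal (4 ^ n / n.factorial) ≤ volume K * volume (polE K) := by
  obtain ⟨h1, h2, h3, h4⟩ := h.pi
  have := Geo.le_volume_mul hl hA h1 h2 h3 h4
  rwa [pol_preimage, volume_preimage_toLp (isClosed_polE K).measurableSet,
    volume_preimage_toLp h.compact.measurableSet, mul_comm] at this

/-- (G2) The contact property for `K` over the points of the polar body. -/
theorem SymBody.contact (h : SymBody K) (hl : Profile lam) (hA : Input lam n)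
    (he : volume K * volume (polE K) ≤ ENNReal.ofReal (4 ^ n / n.factorial)) :
    ∀ x ∈ polE K, ∀ v ∈ K, ContactE lam K x v := by
  obtain ⟨h1, h2, h3, h4⟩ := h.pi
  have := contact_of_le hl hA h1 h2 h3 h4 (by
    rwa [pol_preimage, volume_preimage_toLp (isClosed_polE K).measurableSet,
      volume_preimage_toLp h.compact.measurableSet, mul_comm])
  intro x hx v hv
  obtain ⟨y, hy, β, c, hβ, hc, e⟩ := this (ofLp x) (by rw [pol_preimage]; exact hx) (ofLp v) hv
  refine ⟨toLp 2 y, fun b hb => ?_, fun k => toLp 2 (β k), c, fun k => ⟨(hβ k).1, (hβ k).2.1, ?_⟩,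
    hc, ?_⟩
  · rw [inner_eq_dot, inner_eq_dot]
    exact hy (ofLp b) hb
  · rw [inner_eq_dot, inner_eq_dot]
    exact (hβ k).2.2
  · have := congrArg (toLp 2) e
    rw [toLp_ofLp] at this
    rw [this]
    simp [toLp_sum]

theorem convex_polE (K : Set (EuclideanSpace ℝ (Fin n))) : Convex ℝ (polE K) := by
  intro x hx y hy a b ha hb hab c hc
  rw [inner_add_left, real_inner_smul_left, real_inner_smul_left]
  nlinarith [hx c hc, hy c hc]

/-- The polar of a symmetric convex body is a symmetric convex body. -/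
theorem SymBody.polE (h : SymBody K) : SymBody (polE K) := by
  refine ⟨?_, convex_polE K, ?_, fun y hy x hx => ?_⟩
  · obtain ⟨r, hr, hb⟩ := Metric.mem_nhds_iff.1 (mem_interior_iff_mem_nhds.1 h.zero_mem_interior)
    refine Metric.isCompact_of_isClosed_isBounded (isClosed_polE K) ?_
    refine (Metric.isBounded_closedBall (x := 0) (r := 2 / r)).subset fun y hy => ?_
    rw [mem_closedBall_zero_iff]
    rcases eq_or_ne y 0 with rfl | hy0
    · rw [norm_zero]
      positivity
    have hn : 0 < ‖y‖ := norm_pos_iff.2 hy0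
    have hm : (r / 2 / ‖y‖) • y ∈ K := hb (by
      rw [mem_ball_zero_iff, norm_smul, Real.norm_eq_abs, abs_of_pos (by positivity),
        div_mul_cancel₀ _ hn.ne']
      exact half_lt_self hr)
    have := hy _ hm
    rw [real_inner_smul_right, real_inner_self_eq_norm_sq] at this
    rw [le_div_iff₀ hr]
    have e : r / 2 / ‖y‖ * ‖y‖ ^ 2 = ‖y‖ * r / 2 := by field_simp
    rw [e] at this
    linarith
  · obtain ⟨R, hR0, hR⟩ := h.compact.isBounded.exists_pos_norm_le
    refine ⟨0, mem_interior_iff_mem_nhds.2 ?_⟩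
    refine mem_of_superset (Metric.ball_mem_nhds 0 (ε := 1 / R) (by positivity)) ?_
    intro y hy x hx
    rw [mem_ball_zero_iff, lt_div_iff₀ hR0] at hy
    calc inner ℝ y x ≤ ‖y‖ * ‖x‖ := real_inner_le_norm _ _
      _ ≤ ‖y‖ * R := by gcongr; exact hR x hx
      _ ≤ 1 := hy.le
  · rw [inner_neg_left, ← inner_neg_right]
    exact hy _ (h.symm x hx)

/-- The bipolar theorem. -/
theorem SymBody.polE_polE (h : SymBody K) : Geo.polE (Geo.polE K) = K := by
  ext x
  refine ⟨fun hx => ?_, fun hx y hy => by rw [real_inner_comm]; exact hy x hx⟩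
  by_contra hne
  obtain ⟨f, u, h1, h2⟩ := geometric_hahn_banach_closed_point h.convex h.compact.isClosed hne
  have hu : 0 < u := by simpa using h1 0 (interior_subset h.zero_mem_interior)
  let y := (InnerProductSpace.toDual ℝ (EuclideanSpace ℝ (Fin n))).symm f
  have hy : ∀ a, inner ℝ y a = f a := fun a => InnerProductSpace.toDual_symm_apply
  have hm : u⁻¹ • y ∈ Geo.polE K := fun a ha => by
    rw [real_inner_smul_left, hy, inv_mul_le_iff₀ hu, mul_one]
    exact (h1 a ha).le
  have := hx _ hm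
  rw [real_inner_comm, real_inner_smul_left, hy, inv_mul_le_iff₀ hu, mul_one] at this
  linarith

/-- (G2') The contact property for the polar body over the points of `K`. -/
theorem SymBody.contact_polE (h : SymBody K) (hl : Profile lam) (hA : Input lam n)
    (he : volume K * volume (Geo.polE K) ≤ ENNReal.ofReal (4 ^ n / n.factorial)) :
    ∀ x ∈ K, ∀ v ∈ Geo.polE K, ContactE lam (Geo.polE K) x v := by
  have := h.polE.contact hl hA (by rwa [h.polE_polE, mul_comm])
  rwa [h.polE_polE] at this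

end Vale.Agent.P248Z.Geo
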