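import Mathlib.Analysis.Convex.Function
import Mathlib.LinearAlgebra.Matrix.Determinant.Basic
import Mathlib.MeasureTheory.Measure.Lebesgue.Basic

/-!
# P248, geometric block: definitions

A profile is the half width of a lens. For a finite family of vectors `b j` the set `Feas`
collects the points `x` over which the constraints with indices `I k` and signs `eps k` meet in a
vertex of the polytope `{y | |b j y| ≤ lam (b j x)}`.
-/

open MeasureTheory Matrix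

namespace Vale.Agent.P248Z.Geo

/-- The properties of the profile that the geometric block uses. -/
structure Profile (lam : ℝ → ℝ) : Prop where
  cont : Continuous lam
  even : ∀ t, lam (-t) = lam t
  conc : ConcaveOn ℝ (Set.Icc (-1) 1) lam
  pos : 0 < lam 0

/-- The sign attached to a Boolean. -/
def sg (e : Bool) : ℝ := if e then 1 else -1

/-- The points `x` over which `(I, eps)` is a feasible basis (closed conditions). -/
def Feas {n N : ℕ} (lam : ℝ → ℝ) (b : Fin N → Fin n → ℝ) (I : Fin n → Fin N)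
    (eps : Fin n → Bool) : Set (Fin n → ℝ) :=
  {x | (∀ j, |b j ⬝ᵥ x| ≤ 1) ∧ ∃ y : Fin n → ℝ, (∀ j, |b j ⬝ᵥ y| ≤ lam (b j ⬝ᵥ x)) ∧
    ∀ k, b (I k) ⬝ᵥ y = sg (eps k) * lam (b (I k) ⬝ᵥ x)}

/-- The matrix with rows `b (I k)`. -/
def rows {n N : ℕ} (b : Fin N → Fin n → ℝ) (I : Fin n → Fin N) : Matrix (Fin n) (Fin n) ℝ :=
  Matrix.of fun k => b (I k)

/-- The analytic input in dimension `n`. -/
def Input (lam : ℝ → ℝ) (n : ℕ) : Prop :=
  ∀ (N : ℕ) (b : Fin N → Fin n → ℝ), (∀ x : Fin n → ℝ, (∀ j, b j ⬝ᵥ x = 0) → x = 0) →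
    (4 : ENNReal) ^ n ≤ ∑ I : Fin n ↪o Fin N, ∑ eps : Fin n → Bool,
      ENNReal.ofReal |(rows b I).det| * volume (Feas lam b I eps)

/-- The contact property of the pair `(x, v)` for the body `L`. -/
def Contact {n : ℕ} (lam : ℝ → ℝ) (L : Set (Fin n → ℝ)) (x v : Fin n → ℝ) : Prop :=
  ∃ y : Fin n → ℝ, (∀ b ∈ L, b ⬝ᵥ y ≤ lam (b ⬝ᵥ x)) ∧
    ∃ (β : Fin n → Fin n → ℝ) (c : Fin n → ℝ),
      (∀ k, β k ∈ L ∧ 0 ≤ c k ∧ β k ⬝ᵥ y = lam (β k ⬝ᵥ x)) ∧ ∑ k, c k ≤ 1 ∧ v = ∑ k, c k • β k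

/-- The polar set, in coordinates. -/
def pol {n : ℕ} (L : Set (Fin n → ℝ)) : Set (Fin n → ℝ) := {x | ∀ b ∈ L, b ⬝ᵥ x ≤ 1}

/-- The contact set. -/
def Sig {n : ℕ} (lam : ℝ → ℝ) (L : Set (Fin n → ℝ)) : Set ((Fin n → ℝ) × (Fin n → ℝ)) :=
  {p | p.1 ∈ pol L ∧ Contact lam L p.1 p.2}

theorem sg_sq (e : Bool) : sg e * sg e = 1 := by cases e <;> simp [sg]

theorem abs_sg (e : Bool) : |sg e| = 1 := by cases e <;> simp [sg]

theorem sg_ne_zero (e : Bool) : sg e ≠ 0 := by cases e <;> simp [sg]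

theorem sg_inj {e f : Bool} (h : sg e = sg f) : e = f := by
  cases e <;> cases f <;> simp [sg] at h ⊢ <;> linarith

theorem Profile.sg_mul {lam : ℝ → ℝ} (h : Profile lam) (e : Bool) (t : ℝ) :
    lam (sg e * t) = lam t := by
  cases e
  · simp [sg, h.even]
  · simp [sg]

end Vale.Agent.P248Z.Geo
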