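import Vale.Agent.P248Z.Geo.Poly
import Mathlib.Topology.Sequences
import Mathlib.MeasureTheory.Measure.Regular

/-!
# P248, geometric block: the contact set is compact and has volume at least `4^n / n!`
-/

open MeasureTheory Matrix Set Filter Topology

namespace Vale.Agent.P248Z.Geo

variable {n : ℕ} {lam : ℝ → ℝ} {L : Set (Fin n → ℝ)}

/-- The contact property up to an error `ε` in the constraints. -/
def Approx (lam : ℝ → ℝ) (L : Set (Fin n → ℝ)) (ε : ℝ) : Set ((Fin n → ℝ) × (Fin n → ℝ)) :=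
  {p | ∃ (y : Fin n → ℝ) (β : Fin n → Fin n → ℝ) (c : Fin n → ℝ),
    (∀ a ∈ L, ∃ a', dist a a' ≤ ε ∧ |a' ⬝ᵥ p.1| ≤ 1 ∧ |a' ⬝ᵥ y| ≤ lam (a' ⬝ᵥ p.1)) ∧
    (∀ k, β k ∈ L ∧ 0 ≤ c k ∧ β k ⬝ᵥ y = lam (β k ⬝ᵥ p.1)) ∧ ∑ k, c k ≤ 1 ∧
    p.2 = ∑ k, c k • β k}

theorem Profile.le_zero (h : Profile lam) {t : ℝ} (ht : |t| ≤ 1) : lam t ≤ lam 0 := by
  have h1 := abs_le.1 ht
  have h2 : -t ∈ Icc (-1 : ℝ) 1 := ⟨by linarith [h1.2], by linarith [h1.1]⟩
  have h3 : (0 : ℝ) ≤ 1 / 2 := by norm_num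
  have hc := h.conc.2 (show t ∈ Icc (-1 : ℝ) 1 from h1) h2 h3 h3 (by norm_num)
  simp only [smul_eq_mul, h.even] at hc
  have e : 1 / 2 * t + 1 / 2 * -t = 0 := by ring
  rw [e] at hc
  linarith

theorem abs_dot_le (a x : Fin n → ℝ) : |a ⬝ᵥ x| ≤ n * ‖a‖ * ‖x‖ := by
  calc |a ⬝ᵥ x| ≤ ∑ i, |a i * x i| := Finset.abs_sum_le_sum_abs _ _
    _ ≤ ∑ _i : Fin n, ‖a‖ * ‖x‖ := Finset.sum_le_sum fun i _ => by
        rw [abs_mul]
        exact mul_le_mul (norm_le_pi_norm a i) (norm_le_pi_norm x i) (abs_nonneg _)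
          (norm_nonneg _)
    _ = n * ‖a‖ * ‖x‖ := by simp [mul_assoc]

theorem norm_le_of_net {r ε M : ℝ} (hr : 0 < r) (hL : ∀ i, (Pi.single i r : Fin n → ℝ) ∈ L)
    (hε : n * ε ≤ r / 2) (hM : 0 ≤ M) {x : Fin n → ℝ}
    (hx : ∀ a ∈ L, ∃ a', dist a a' ≤ ε ∧ |a' ⬝ᵥ x| ≤ M) : ‖x‖ ≤ 2 * M / r := by
  have key : ∀ i, r * |x i| ≤ M + r / 2 * ‖x‖ := by
    intro i
    obtain ⟨a', h1, h2⟩ := hx _ (hL i)
    have e : r * x i = a' ⬝ᵥ x + (Pi.single i r - a') ⬝ᵥ x := by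
      rw [sub_dotProduct, single_dotProduct]
      ring
    have h3 := abs_dot_le (Pi.single i r - a') x
    rw [← dist_eq_norm] at h3
    have h4 : (n : ℝ) * dist (Pi.single i r : Fin n → ℝ) a' * ‖x‖ ≤ r / 2 * ‖x‖ := by
      refine mul_le_mul_of_nonneg_right (le_trans ?_ hε) (norm_nonneg _)
      exact mul_le_mul_of_nonneg_left h1 (Nat.cast_nonneg _)
    calc r * |x i| = |r * x i| := by rw [abs_mul, abs_of_pos hr]
      _ ≤ |a' ⬝ᵥ x| + |(Pi.single i r - a') ⬝ᵥ x| := by rw [e]; exact abs_add_le _ _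
      _ ≤ M + r / 2 * ‖x‖ := by linarith
  have h5 : ‖x‖ ≤ (M + r / 2 * ‖x‖) / r := by
    refine (pi_norm_le_iff_of_nonneg (by positivity)).2 fun i => ?_
    rw [le_div_iff₀ hr, mul_comm, Real.norm_eq_abs]
    exact key i
  rw [le_div_iff₀ hr] at h5 ⊢
  linarith

theorem tendsto_dot {α : Type*} {l : Filter α} {a x : α → Fin n → ℝ} {a0 x0 : Fin n → ℝ}
    (ha : Tendsto a l (𝓝 a0)) (hx : Tendsto x l (𝓝 x0)) :
    Tendsto (fun m => a m ⬝ᵥ x m) l (𝓝 (a0 ⬝ᵥ x0)) := by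
  have : Continuous fun p : (Fin n → ℝ) × (Fin n → ℝ) => p.1 ⬝ᵥ p.2 := by
    unfold dotProduct
    fun_prop
  exact (this.tendsto (a0, x0)).comp (ha.prodMk_nhds hx)

theorem exists_subseq (h : Profile lam) (hc : IsCompact L) {r : ℝ} (hr : 0 < r)
    (hL : ∀ i, (Pi.single i r : Fin n → ℝ) ∈ L) {ε : ℕ → ℝ} (hε : Tendsto ε atTop (𝓝 0))
    {p : ℕ → (Fin n → ℝ) × (Fin n → ℝ)} (hp : ∀ m, p m ∈ Approx lam L (ε m)) :
    ∃ q ∈ Sig lam L, ∃ φ : ℕ → ℕ, StrictMono φ ∧ Tendsto (p ∘ φ) atTop (𝓝 q) := by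
  choose y β c h1 h2 h3 h4 using hp
  let C : Set ((Fin n → ℝ) × (Fin n → ℝ) × (Fin n → Fin n → ℝ) × (Fin n → ℝ)) :=
    Metric.closedBall 0 (2 * 1 / r) ×ˢ Metric.closedBall 0 (2 * lam 0 / r) ×ˢ
      (univ.pi fun _ => L) ×ˢ (univ.pi fun _ => Icc 0 1)
  have hC : IsCompact C := (isCompact_closedBall _ _).prod ((isCompact_closedBall _ _).prod
    ((isCompact_univ_pi fun _ => hc).prod (isCompact_univ_pi fun _ => isCompact_Icc)))
  have hev : ∀ᶠ m in atTop, (n : ℝ) * ε m ≤ r / 2 := by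
    have : Tendsto (fun m => (n : ℝ) * ε m) atTop (𝓝 (n * 0)) := hε.const_mul _
    rw [mul_zero] at this
    exact this.eventually (eventually_le_nhds (by positivity))
  have hmem : ∃ᶠ m in atTop, ((p m).1, y m, β m, c m) ∈ C := by
    refine (hev.mono fun m hm => ⟨?_, ?_, ?_, ?_⟩).frequently
    · rw [mem_closedBall_zero_iff]
      refine norm_le_of_net hr hL hm zero_le_one fun a ha => ?_
      obtain ⟨a', e1, e2, -⟩ := h1 m a ha
      exact ⟨a', e1, e2⟩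
    · rw [mem_closedBall_zero_iff]
      refine norm_le_of_net hr hL hm h.pos.le fun a ha => ?_
      obtain ⟨a', e1, e2, e3⟩ := h1 m a ha
      exact ⟨a', e1, e3.trans (h.le_zero e2)⟩
    · exact fun k _ => (h2 m k).1
    · refine fun k _ => ⟨(h2 m k).2.1, le_trans ?_ (h3 m)⟩
      exact Finset.single_le_sum (fun k _ => (h2 m k).2.1) (Finset.mem_univ k)
  obtain ⟨⟨x0, y0, β0, c0⟩, hz, φ, hφ, hlim⟩ := hC.tendsto_subseq' hmem
  have tx : Tendsto (fun m => (p (φ m)).1) atTop (𝓝 x0) := (continuous_fst.tendsto _).comp hlim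
  have ty : Tendsto (fun m => y (φ m)) atTop (𝓝 y0) :=
    (continuous_snd.fst.tendsto _).comp hlim
  have tβ : Tendsto (fun m => β (φ m)) atTop (𝓝 β0) :=
    (continuous_snd.snd.fst.tendsto _).comp hlim
  have tc : Tendsto (fun m => c (φ m)) atTop (𝓝 c0) :=
    (continuous_snd.snd.snd.tendsto _).comp hlim
  have tβk : ∀ k, Tendsto (fun m => β (φ m) k) atTop (𝓝 (β0 k)) := tendsto_pi_nhds.1 tβ
  have tck : ∀ k, Tendsto (fun m => c (φ m) k) atTop (𝓝 (c0 k)) := tendsto_pi_nhds.1 tc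
  have key : ∀ a ∈ L, a ⬝ᵥ x0 ≤ 1 ∧ a ⬝ᵥ y0 ≤ lam (a ⬝ᵥ x0) := by
    intro a ha
    choose a' e1 e2 e3 using fun m => h1 (φ m) a ha
    have ta : Tendsto a' atTop (𝓝 a) := by
      rw [tendsto_iff_dist_tendsto_zero]
      refine squeeze_zero (fun _ => dist_nonneg) (fun m => ?_) (hε.comp hφ.tendsto_atTop)
      rw [dist_comm]
      exact e1 m
    exact ⟨le_of_tendsto' (tendsto_dot ta tx) fun m => (le_abs_self _).trans (e2 m),
      le_of_tendsto_of_tendsto' (tendsto_dot ta ty)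
        ((h.cont.tendsto _).comp (tendsto_dot ta tx)) fun m => (le_abs_self _).trans (e3 m)⟩
  refine ⟨(x0, ∑ k, c0 k • β0 k), ⟨fun a ha => (key a ha).1, y0, fun a ha => (key a ha).2, β0, c0,
    fun k => ⟨hz.2.2.1 k (mem_univ k), (hz.2.2.2 k (mem_univ k)).1, ?_⟩, ?_, rfl⟩, φ, hφ, ?_⟩
  · refine tendsto_nhds_unique (tendsto_dot (tβk k) ty) ?_
    have := (h.cont.tendsto _).comp (tendsto_dot (tβk k) tx)
    refine this.congr fun m => ?_
    exact ((h2 (φ m) k).2.2).symm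
  · exact le_of_tendsto' (tendsto_finsetSum _ fun k _ => tck k) fun m => h3 (φ m)
  · refine Tendsto.prodMk_nhds tx ?_
    have := tendsto_finsetSum Finset.univ fun k _ => (tck k).smul (tβk k)
    refine this.congr fun m => ?_
    exact (h4 (φ m)).symm

theorem Sig_subset_Approx (h : Profile lam) (hs : ∀ a ∈ L, -a ∈ L) :
    Sig lam L ⊆ Approx lam L 0 := by
  rintro p ⟨hx, y, hy, β, c, h1, h2, h3⟩
  refine ⟨y, β, c, fun a ha => ⟨a, (dist_self a).le, ?_, ?_⟩, h1, h2, h3⟩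
  · have := hx _ (hs a ha)
    rw [neg_dotProduct] at this
    exact abs_le.2 ⟨by linarith, hx a ha⟩
  · have := hy _ (hs a ha)
    rw [neg_dotProduct, neg_dotProduct, h.even] at this
    exact abs_le.2 ⟨by linarith, hy a ha⟩

theorem isCompact_Sig (h : Profile lam) (hc : IsCompact L) (hs : ∀ a ∈ L, -a ∈ L) {r : ℝ}
    (hr : 0 < r) (hL : ∀ i, (Pi.single i r : Fin n → ℝ) ∈ L) : IsCompact (Sig lam L) :=
  IsSeqCompact.isCompact fun _ hp =>
    exists_subseq h hc hr hL (ε := fun _ => 0) tendsto_const_nhds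
      fun m => Sig_subset_Approx h hs (hp m)

theorem exists_Approx_subset (h : Profile lam) (hc : IsCompact L) {r : ℝ} (hr : 0 < r)
    (hL : ∀ i, (Pi.single i r : Fin n → ℝ) ∈ L) {U : Set ((Fin n → ℝ) × (Fin n → ℝ))}
    (hU : IsOpen U) (hS : Sig lam L ⊆ U) :
    ∃ ε : ℝ, 0 < ε ∧ n * ε ≤ r / 2 ∧ Approx lam L ε ⊆ U := by
  by_contra hne
  push Not at hne
  have ht : Tendsto (fun m : ℕ => r / 2 / (n + 1) * (1 / ((m : ℝ) + 1))) atTop (𝓝 0) := by
    have := tendsto_one_div_add_atTop_nhds_zero_nat (𝕜 := ℝ).const_mul (r / 2 / (n + 1))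
    rwa [mul_zero] at this
  have : ∀ m : ℕ, ∃ p ∈ Approx lam L (r / 2 / (n + 1) * (1 / ((m : ℝ) + 1))), p ∉ U := by
    intro m
    refine not_subset.1 (hne _ (by positivity) ?_)
    have h1 : 1 / ((m : ℝ) + 1) ≤ 1 := by
      rw [div_le_one (by positivity)]
      linarith [Nat.cast_nonneg (α := ℝ) m]
    have h2 : (n : ℝ) * (r / 2 / (n + 1)) ≤ r / 2 := by
      rw [← mul_div_assoc, div_le_iff₀ (by positivity)]
      nlinarith
    calc (n : ℝ) * (r / 2 / (n + 1) * (1 / ((m : ℝ) + 1)))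
        ≤ n * (r / 2 / (n + 1) * 1) := by gcongr
      _ ≤ r / 2 := by rwa [mul_one]
  choose p hp hpU using this
  obtain ⟨q, hq, φ, -, hlim⟩ := exists_subseq h hc hr hL ht hp
  obtain ⟨m, hm⟩ := (hlim.eventually (hU.mem_nhds (hS hq))).exists
  exact hpU _ hm

theorem exists_net (hc : IsCompact L) {ε : ℝ} (hε : 0 < ε) :
    ∃ (N : ℕ) (b : Fin N → Fin n → ℝ), (∀ j, b j ∈ L) ∧ ∀ a ∈ L, ∃ j, dist a (b j) < ε := by
  obtain ⟨t, htL, htf, hcov⟩ := finite_cover_balls_of_compact hc hε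
  obtain ⟨N, ⟨e⟩⟩ := htf.to_subtype.exists_equiv_fin
  refine ⟨N, fun j => (e.symm j : Fin n → ℝ), fun j => htL (e.symm j).2, fun a ha => ?_⟩
  obtain ⟨x, hx, hax⟩ := mem_iUnion₂.1 (hcov ha)
  exact ⟨e ⟨x, hx⟩, by simpa using hax⟩

theorem le_volume_Sig (h : Profile lam) (hA : Input lam n) (hc : IsCompact L) (hv : Convex ℝ L)
    (hs : ∀ a ∈ L, -a ∈ L) {r : ℝ} (hr : 0 < r) (hL : ∀ i, (Pi.single i r : Fin n → ℝ) ∈ L) :
    ENNReal.ofReal (4 ^ n / n.factorial) ≤ volume (Sig lam L) := by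
  rw [Set.measure_eq_iInf_isOpen]
  refine le_iInf fun U => le_iInf fun hS => le_iInf fun hU => ?_
  obtain ⟨ε, hε, hεr, hAp⟩ := exists_Approx_subset h hc hr hL hU hS
  obtain ⟨N, b, hbL, hb⟩ := exists_net hc (half_pos hε)
  obtain ⟨R, hR0, hR⟩ := hc.isBounded.exists_pos_norm_le
  obtain ⟨s, hs1, hgen⟩ := h.exists_generic b (δ := min 1 (ε / 2 / R)) (by positivity)
    (min_le_left _ _)
  have hs0 : ∀ j, 0 ≤ s j := fun j => by linarith [(hs1 j).1, min_le_left 1 (ε / 2 / R)]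
  have hnet : ∀ a ∈ L, ∃ j, dist a (s j • b j) ≤ ε := by
    intro a ha
    obtain ⟨j, hj⟩ := hb a ha
    refine ⟨j, (dist_triangle a (b j) _).trans ?_⟩
    have e : dist (b j) (s j • b j) = (1 - s j) * ‖b j‖ := by
      rw [dist_eq_norm, show b j - s j • b j = (1 - s j) • b j by rw [sub_smul, one_smul],
        norm_smul, Real.norm_eq_abs, abs_of_nonneg (by linarith [(hs1 j).2])]
    have h1 : 1 - s j ≤ ε / 2 / R := by linarith [(hs1 j).1, min_le_right 1 (ε / 2 / R)]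
    have h2 : (1 - s j) * ‖b j‖ ≤ ε / 2 / R * R :=
      mul_le_mul h1 (hR _ (hbL j)) (norm_nonneg _) (by positivity)
    rw [div_mul_cancel₀ _ hR0.ne'] at h2
    linarith
  have hsb : ∀ j, s j • b j ∈ L := fun j => by
    have h0 : (0 : Fin n → ℝ) ∈ L := by
      have := hv (hbL j) (hs _ (hbL j)) (a := 1 / 2) (b := 1 / 2) (by norm_num) (by norm_num)
        (by norm_num)
      simpa using this
    exact hv.smul_mem_of_zero_mem h0 (hbL j) ⟨hs0 j, (hs1 j).2.le⟩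
  refine le_volume_prod h hA (b := fun j => s j • b j) (fun x hx => ?_) hgen hU.measurableSet ?_
  · have := norm_le_of_net hr hL hεr le_rfl (x := x) fun a ha => by
      obtain ⟨j, hj⟩ := hnet a ha
      exact ⟨_, hj, by rw [hx j, abs_zero]⟩
    simpa using this
  · rintro I eps - x ⟨hx, y, hy, ay⟩ v hvm
    obtain ⟨c, hcD, rfl⟩ := mem_SmpB.1 hvm
    refine hAp ⟨y, fun k => sg (eps k) • s (I k) • b (I k), c, fun a ha => ?_,
      fun k => ⟨?_, (hcD.1 k).le, ?_⟩, hcD.2.le, rfl⟩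
    · obtain ⟨j, hj⟩ := hnet a ha
      exact ⟨_, hj, hx j, hy j⟩
    · rcases Bool.eq_false_or_eq_true (eps k) with e | e
      · simpa [sg, e] using hsb (I k)
      · simpa [sg, e] using hs _ (hsb (I k))
    · rw [smul_dotProduct, ay k, smul_dotProduct (sg _), smul_eq_mul, smul_eq_mul, h.sg_mul,
        ← mul_assoc, sg_sq, one_mul]

end Vale.Agent.P248Z.Geo
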