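import Vale.Agent.P248Z.Geo.Limit
import Mathlib.Analysis.Convex.Topology

/-!
# P248, geometric block: the inequality and the contact property, in coordinates
-/

open MeasureTheory Matrix Set Filter Topology

namespace Vale.Agent.P248Z.Geo

variable {n : ℕ} {lam : ℝ → ℝ} {L : Set (Fin n → ℝ)}

theorem sum_smul_mem {E : Type*} [AddCommGroup E] [Module ℝ E] {L : Set E} (hv : Convex ℝ L)
    (h0 : (0 : E) ∈ L) {β : Fin n → E} {c : Fin n → ℝ} (hβ : ∀ k, β k ∈ L) (hc : ∀ k, 0 ≤ c k)
    (hs : ∑ k, c k ≤ 1) : ∑ k, c k • β k ∈ L := by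
  have := hv.sum_mem (t := (Finset.univ : Finset (Option (Fin n))))
    (w := fun o => o.elim (1 - ∑ k, c k) c) (z := fun o => o.elim 0 β) ?_ ?_ ?_
  · simpa [Fintype.sum_option] using this
  · rintro (_ | k) _
    · simpa using hs
    · exact hc k
  · simp [Fintype.sum_option]
  · rintro (_ | k) _
    · exact h0
    · exact hβ k

theorem Sig_subset (hv : Convex ℝ L) (h0 : (0 : Fin n → ℝ) ∈ L) : Sig lam L ⊆ pol L ×ˢ L := by
  rintro p ⟨hx, y, -, β, c, h1, h2, h3⟩
  refine ⟨hx, ?_⟩
  rw [h3]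
  exact sum_smul_mem hv h0 (fun k => (h1 k).1) (fun k => (h1 k).2.1) h2

theorem exists_single_mem (h0 : (0 : Fin n → ℝ) ∈ interior L) :
    ∃ r : ℝ, 0 < r ∧ ∀ i, (Pi.single i r : Fin n → ℝ) ∈ L := by
  obtain ⟨r, hr, hb⟩ := Metric.mem_nhds_iff.1 (mem_interior_iff_mem_nhds.1 h0)
  refine ⟨r / 2, half_pos hr, fun i => hb ?_⟩
  rw [mem_ball_zero_iff, Pi.norm_single, Real.norm_eq_abs, abs_of_pos (half_pos hr)]
  exact half_lt_self hr

theorem convex_pol (L : Set (Fin n → ℝ)) : Convex ℝ (pol L) := by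
  intro x hx y hy a b ha hb hab c hc
  rw [dotProduct_add, dotProduct_smul, dotProduct_smul, smul_eq_mul, smul_eq_mul]
  nlinarith [hx c hc, hy c hc]

theorem zero_mem_interior_pol (hc : IsCompact L) : (0 : Fin n → ℝ) ∈ interior (pol L) := by
  obtain ⟨R, hR0, hR⟩ := hc.isBounded.exists_pos_norm_le
  rw [mem_interior_iff_mem_nhds]
  refine mem_of_superset (Metric.ball_mem_nhds 0 (ε := 1 / (n * R + 1)) (by positivity)) ?_
  intro x hx b hb
  rw [mem_ball_zero_iff, lt_div_iff₀ (by positivity)] at hx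
  have h1 := abs_dot_le b x
  have h2 : (n : ℝ) * ‖b‖ * ‖x‖ ≤ n * R * ‖x‖ := by gcongr; exact hR b hb
  have h3 := norm_nonneg x
  nlinarith [le_abs_self (b ⬝ᵥ x)]

/-- The inequality, in coordinates. -/
theorem le_volume_mul (h : Profile lam) (hA : Input lam n) (hc : IsCompact L) (hv : Convex ℝ L)
    (hs : ∀ a ∈ L, -a ∈ L) (h0 : (0 : Fin n → ℝ) ∈ interior L) :
    ENNReal.ofReal (4 ^ n / n.factorial) ≤ volume (pol L) * volume L := by
  obtain ⟨r, hr, hL⟩ := exists_single_mem h0
  refine (le_volume_Sig h hA hc hv hs hr hL).trans ?_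
  rw [← Measure.prod_prod, ← Measure.volume_eq_prod]
  exact measure_mono (Sig_subset hv (interior_subset h0))

/-- The contact property in the case of equality, in coordinates. -/
theorem contact_of_le (h : Profile lam) (hA : Input lam n) (hc : IsCompact L) (hv : Convex ℝ L)
    (hs : ∀ a ∈ L, -a ∈ L) (h0 : (0 : Fin n → ℝ) ∈ interior L)
    (he : volume (pol L) * volume L ≤ ENNReal.ofReal (4 ^ n / n.factorial)) :
    ∀ x ∈ pol L, ∀ v ∈ L, Contact lam L x v := by
  obtain ⟨r, hr, hL⟩ := exists_single_mem h0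
  have hS := isCompact_Sig h hc hs hr hL
  have hlow := le_volume_Sig h hA hc hv hs hr hL
  rw [← Measure.prod_prod, ← Measure.volume_eq_prod] at he
  have hP : Convex ℝ (pol L ×ˢ L) := (convex_pol L).prod hv
  have hI : (interior (pol L ×ˢ L)).Nonempty := by
    rw [interior_prod_eq]
    exact ⟨(0, 0), zero_mem_interior_pol hc, h0⟩
  have hsub : interior (pol L ×ˢ L) ⊆ Sig lam L := by
    by_contra hne
    obtain ⟨p, hp, hpS⟩ := not_subset.1 hne
    have hW : IsOpen (interior (pol L ×ˢ L) \ Sig lam L) := isOpen_interior.sdiff hS.isClosed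
    have hpos : 0 < volume (interior (pol L ×ˢ L) \ Sig lam L) := hW.measure_pos _ ⟨p, hp, hpS⟩
    have hu : volume (Sig lam L ∪ (interior (pol L ×ˢ L) \ Sig lam L)) ≤ volume (pol L ×ˢ L) :=
      measure_mono (union_subset (Sig_subset hv (interior_subset h0))
        (sdiff_subset.trans interior_subset))
    rw [measure_union disjoint_sdiff_right hW.measurableSet] at hu
    have := ENNReal.lt_add_right hS.measure_lt_top.ne hpos.ne' (a := volume (Sig lam L))
    exact absurd ((hu.trans he).trans hlow) (not_le.2 this)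
  intro x hx v hv'
  have : (x, v) ∈ closure (interior (pol L ×ˢ L)) := by
    rw [hP.closure_interior_eq_closure_of_nonempty_interior hI]
    exact subset_closure ⟨hx, hv'⟩
  exact (closure_minimal hsub hS.isClosed this).2

end Vale.Agent.P248Z.Geo
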