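import Vale.Agent.P248Z.Geo.Defs
import Mathlib.MeasureTheory.Integral.Marginal
import Mathlib.MeasureTheory.Measure.Prod
import Mathlib.MeasureTheory.Measure.OpenPos
import Mathlib.LinearAlgebra.Matrix.NonsingularInverse

/-!
# P248, geometric block: generic scalings have no ties over almost every point
-/

open MeasureTheory Matrix Set

namespace Vale.Agent.P248Z.Geo

/-- No tie over the point `x`. -/
def Gen {n N : ℕ} (lam : ℝ → ℝ) (b : Fin N → Fin n → ℝ) (x : Fin n → ℝ) : Prop :=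
  (∀ j, |b j ⬝ᵥ x| ≤ 1 → lam (b j ⬝ᵥ x) ≠ 0) ∧
  ∀ (I : Fin n → Fin N) (eps : Fin n → Bool) (y : Fin n → ℝ), (rows b I).det ≠ 0 →
    (∀ k, b (I k) ⬝ᵥ y = sg (eps k) * lam (b (I k) ⬝ᵥ x)) →
    ∀ j, (∀ k, I k ≠ j) → |b j ⬝ᵥ x| ≤ 1 → |b j ⬝ᵥ y| ≠ lam (b j ⬝ᵥ x)

theorem Profile.tie_lt {lam : ℝ → ℝ} (h : Profile lam) {p q s t : ℝ} (hs : 0 < s) (hst : s < t)
    (ht : |t * q| ≤ 1) (h1 : s * p = lam (s * q)) (h2 : t * p = lam (t * q)) : False := by
  have ht0 : 0 < t := hs.trans hst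
  have ha : 0 ≤ s / t := by positivity
  have hb : 0 < 1 - s / t := by
    rw [sub_pos, div_lt_one ht0]
    exact hst
  have hc := h.conc.2 (x := t * q) (y := 0) (abs_le.1 ht) (by constructor <;> norm_num) ha hb.le
    (by ring)
  simp only [smul_eq_mul, mul_zero, add_zero] at hc
  have e1 : s / t * (t * q) = s * q := by field_simp
  rw [e1, ← h1, ← h2] at hc
  have e2 : s / t * (t * p) = s * p := by field_simp
  rw [e2] at hc
  have := mul_pos hb h.pos
  linarith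

theorem Profile.tie {lam : ℝ → ℝ} (h : Profile lam) (p q : ℝ) :
    {s : ℝ | 0 < s ∧ |s * q| ≤ 1 ∧ s * p = lam (s * q)}.Subsingleton := by
  rintro s ⟨hs, hs1, hs2⟩ t ⟨ht, ht1, ht2⟩
  rcases lt_trichotomy s t with hst | hst | hst
  · exact (h.tie_lt hs hst ht1 hs2 ht2).elim
  · exact hst
  · exact (h.tie_lt ht hst hs1 ht2 hs2).elim

theorem null_of_sections {N : ℕ} {A : Set (Fin N → ℝ)} (hA : MeasurableSet A) (j : Fin N)
    (h : ∀ s : Fin N → ℝ, {t : ℝ | Function.update s j t ∈ A}.Subsingleton) : volume A = 0 := by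
  rw [← lintegral_indicator_one hA, volume_pi, lintegral_eq_lmarginal_univ (0 : Fin N → ℝ),
    lmarginal_erase' _ (measurable_one.indicator hA) (Finset.mem_univ j)]
  have : (fun x : Fin N → ℝ => ∫⁻ t : ℝ,
      A.indicator (1 : (Fin N → ℝ) → ENNReal) (Function.update x j t)) = fun _ => 0 := by
    funext x
    have hm : MeasurableSet {t : ℝ | Function.update x j t ∈ A} :=
      hA.preimage (measurable_update x)
    have : (fun t : ℝ => A.indicator (1 : (Fin N → ℝ) → ENNReal) (Function.update x j t)) =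
        {t : ℝ | Function.update x j t ∈ A}.indicator 1 := by
      funext t
      by_cases ht : Function.update x j t ∈ A
      · simp [indicator, ht]
      · simp [indicator, ht]
    rw [this, lintegral_indicator_one hm]
    exact (h x).measure_zero _
  rw [this]
  simp [lmarginal]

theorem Profile.ae_no_tie {lam : ℝ → ℝ} (h : Profile lam) {n N : ℕ} (b : Fin n → ℝ) (j : Fin N)
    (P : (Fin n → ℝ) → (Fin N → ℝ) → ℝ) (hP : Measurable fun z : (Fin n → ℝ) × (Fin N → ℝ) =>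
      P z.1 z.2) (hPj : ∀ x s t, P x (Function.update s j t) = P x s) :
    ∀ᵐ s : Fin N → ℝ, ∀ᵐ x : Fin n → ℝ,
      ¬ (0 < s j ∧ |s j * (b ⬝ᵥ x)| ≤ 1 ∧ s j * P x s = lam (s j * (b ⬝ᵥ x))) := by
  have hl := h.cont.measurable
  have hdot : Measurable fun z : (Fin n → ℝ) × (Fin N → ℝ) => b ⬝ᵥ z.1 := by
    unfold dotProduct
    fun_prop
  have hsj : Measurable fun z : (Fin n → ℝ) × (Fin N → ℝ) => z.2 j := by fun_prop
  have hZ : MeasurableSet {z : (Fin n → ℝ) × (Fin N → ℝ) |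
      0 < z.2 j ∧ |z.2 j * (b ⬝ᵥ z.1)| ≤ 1 ∧ z.2 j * P z.1 z.2 = lam (z.2 j * (b ⬝ᵥ z.1))} :=
    (measurableSet_lt measurable_const hsj).inter
      ((measurableSet_le (continuous_abs.measurable.comp (hsj.mul hdot)) measurable_const).inter
        (measurableSet_eq_fun (hsj.mul hP) (hl.comp (hsj.mul hdot))))
  refine (Measure.ae_ae_comm (p := fun (x : Fin n → ℝ) (s : Fin N → ℝ) =>
    ¬ (0 < s j ∧ |s j * (b ⬝ᵥ x)| ≤ 1 ∧ s j * P x s = lam (s j * (b ⬝ᵥ x)))) hZ.compl).1 ?_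
  refine Filter.Eventually.of_forall fun x => ?_
  rw [ae_iff]
  simp only [not_not]
  refine null_of_sections (hZ.preimage (measurable_prodMk_left (x := x))) j fun s => ?_
  have := h.tie (P x s) (b ⬝ᵥ x)
  simpa [hPj] using this

theorem det_rows_smul {n N : ℕ} (b : Fin N → Fin n → ℝ) (s : Fin N → ℝ) (I : Fin n → Fin N) :
    (rows (fun j => s j • b j) I).det = (∏ k, s (I k)) * (rows b I).det := by
  have : rows (fun j => s j • b j) I = Matrix.diagonal (fun k => s (I k)) * rows b I := by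
    ext k l
    simp [rows, Matrix.diagonal_mul]
  rw [this, Matrix.det_mul, Matrix.det_diagonal]

theorem Profile.exists_generic {lam : ℝ → ℝ} (h : Profile lam) {n N : ℕ}
    (b : Fin N → Fin n → ℝ) {δ : ℝ} (hδ : 0 < δ) (hδ1 : δ ≤ 1) :
    ∃ s : Fin N → ℝ, (∀ j, 1 - δ < s j ∧ s j < 1) ∧
      ∀ᵐ x : Fin n → ℝ, Gen lam (fun j => s j • b j) x := by
  have hl := h.cont.measurable
  let Y : (Fin n → Fin N) → (Fin n → Bool) → (Fin n → ℝ) → (Fin N → ℝ) → Fin n → ℝ :=
    fun I eps x s => (rows b I)⁻¹ *ᵥ fun k =>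
      sg (eps k) * lam (s (I k) * (b (I k) ⬝ᵥ x)) / s (I k)
  have h0 : ∀ᵐ s : Fin N → ℝ, ∀ j, ∀ᵐ x : Fin n → ℝ,
      ¬ (0 < s j ∧ |s j * (b j ⬝ᵥ x)| ≤ 1 ∧ s j * 0 = lam (s j * (b j ⬝ᵥ x))) :=
    ae_all_iff.2 fun j => h.ae_no_tie (b j) j (fun _ _ => 0) measurable_const fun _ _ _ => rfl
  have h1 : ∀ᵐ s : Fin N → ℝ, ∀ (I : Fin n → Fin N) (eps : Fin n → Bool) (j : Fin N),
      (∀ k, I k ≠ j) → ∀ᵐ x : Fin n → ℝ,
      ¬ (0 < s j ∧ |s j * (b j ⬝ᵥ x)| ≤ 1 ∧
        s j * |b j ⬝ᵥ Y I eps x s| = lam (s j * (b j ⬝ᵥ x))) := by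
    refine ae_all_iff.2 fun I => ae_all_iff.2 fun eps => ae_all_iff.2 fun j => ?_
    by_cases hj : ∀ k, I k ≠ j
    · have := h.ae_no_tie (b j) j (fun x s => |b j ⬝ᵥ Y I eps x s|) (by
        simp only [Y, dotProduct, Matrix.mulVec]
        fun_prop) (by
        intro x s t
        simp only [Y, Function.update_of_ne (hj _)])
      filter_upwards [this] with s hs _ using hs
    · exact Filter.Eventually.of_forall fun s hs => (hj hs).elim
  have hopen : IsOpen {s : Fin N → ℝ | ∀ j, 1 - δ < s j ∧ s j < 1} := by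
    rw [ofPred_forall]
    exact isOpen_iInter_of_finite fun j =>
      (isOpen_lt continuous_const (continuous_apply j)).inter
        (isOpen_lt (continuous_apply j) continuous_const)
  obtain ⟨s, ⟨hs0, hs1⟩, hs⟩ := (Measure.dense_of_ae (h0.and h1)).exists_mem_open hopen
    ⟨fun _ => 1 - δ / 2, fun j => ⟨by linarith, by linarith⟩⟩
  refine ⟨s, hs, ?_⟩
  have hpos : ∀ j, 0 < s j := fun j => by linarith [(hs j).1]
  have hs1' : ∀ᵐ x : Fin n → ℝ, ∀ (I : Fin n → Fin N) (eps : Fin n → Bool) (j : Fin N),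
      (∀ k, I k ≠ j) → ¬ (0 < s j ∧ |s j * (b j ⬝ᵥ x)| ≤ 1 ∧
        s j * |b j ⬝ᵥ Y I eps x s| = lam (s j * (b j ⬝ᵥ x))) := by
    refine ae_all_iff.2 fun I => ae_all_iff.2 fun eps => ae_all_iff.2 fun j => ?_
    by_cases hj : ∀ k, I k ≠ j
    · filter_upwards [hs1 I eps j hj] with x hx _ using hx
    · exact Filter.Eventually.of_forall fun x hx => (hj hx).elim
  filter_upwards [ae_all_iff.2 hs0, hs1'] with x hx0 hx1
  refine ⟨fun j hj e => ?_, fun I eps y hdet hy j hj hjx e => ?_⟩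
  · simp only [smul_dotProduct, smul_eq_mul] at hj e
    exact hx0 j ⟨hpos j, hj, by rw [e, mul_zero]⟩
  · simp only [smul_dotProduct, smul_eq_mul] at hy hjx e
    rw [det_rows_smul] at hdet
    have hdet' : (rows b I).det ≠ 0 := right_ne_zero_of_mul hdet
    have hyY : y = Y I eps x s := by
      have : rows b I *ᵥ y = fun k => sg (eps k) * lam (s (I k) * (b (I k) ⬝ᵥ x)) / s (I k) := by
        funext k
        have := hy k
        rw [eq_div_iff (hpos _).ne', ← this, mul_comm]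
        rfl
      simp only [Y]
      rw [← this, Matrix.mulVec_mulVec, Matrix.nonsing_inv_mul _ (isUnit_iff_ne_zero.2 hdet'),
        Matrix.one_mulVec]
    refine hx1 I eps j hj ⟨hpos j, hjx, ?_⟩
    rw [← hyY, ← e, abs_mul, abs_of_pos (hpos j)]

end Vale.Agent.P248Z.Geo
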