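import Vale.Agent.P248Z.Geo.Simplex
import Vale.Agent.P248Z.Geo.Tie

/-!
# P248, geometric block: the simplices of the feasible bases are disjoint
-/

open MeasureTheory Matrix Set

namespace Vale.Agent.P248Z.Geo

variable {n N : ℕ} {lam : ℝ → ℝ} {b : Fin N → Fin n → ℝ}

/-- The open simplex of a signed basis. -/
def SmpB (b : Fin N → Fin n → ℝ) (I : Fin n → Fin N) (eps : Fin n → Bool) : Set (Fin n → ℝ) :=
  Smp (Matrix.of fun k => sg (eps k) • rows b I k)

theorem volume_SmpB (b : Fin N → Fin n → ℝ) (I : Fin n → Fin N) (eps : Fin n → Bool) :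
    volume (SmpB b I eps) = ENNReal.ofReal |(rows b I).det| * volume (Dl n) := by
  rw [SmpB, volume_Smp, abs_det_sg]

theorem isOpen_SmpB {I : Fin n → Fin N} (h : (rows b I).det ≠ 0) (eps : Fin n → Bool) :
    IsOpen (SmpB b I eps) := by
  refine isOpen_Smp fun e => h ?_
  have := abs_det_sg eps (rows b I)
  rw [e, abs_zero] at this
  exact abs_eq_zero.1 this.symm

theorem mem_SmpB {I : Fin n → Fin N} {eps : Fin n → Bool} {v : Fin n → ℝ} :
    v ∈ SmpB b I eps ↔ ∃ c ∈ Dl n, v = ∑ k, c k • sg (eps k) • b (I k) := Iff.rfl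

theorem isClosed_Feas (h : Profile lam) {I : Fin n → Fin N} (hdet : (rows b I).det ≠ 0)
    (eps : Fin n → Bool) : IsClosed (Feas lam b I eps) := by
  have hc := h.cont
  let Y : (Fin n → ℝ) → Fin n → ℝ :=
    fun x => (rows b I)⁻¹ *ᵥ fun k => sg (eps k) * lam (b (I k) ⬝ᵥ x)
  have hY : Continuous Y := by
    refine continuous_pi fun l => ?_
    simp only [Y, Matrix.mulVec, dotProduct]
    fun_prop
  have hu := isUnit_iff_ne_zero.2 hdet
  have : Feas lam b I eps =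
      {x | ∀ j, |b j ⬝ᵥ x| ≤ 1} ∩ {x | ∀ j, |b j ⬝ᵥ Y x| ≤ lam (b j ⬝ᵥ x)} := by
    ext x
    constructor
    · rintro ⟨h1, y, h2, h3⟩
      have e : rows b I *ᵥ y = fun k => sg (eps k) * lam (b (I k) ⬝ᵥ x) := funext h3
      have : y = Y x := by
        simp only [Y]
        rw [← e, Matrix.mulVec_mulVec, Matrix.nonsing_inv_mul _ hu, Matrix.one_mulVec]
      exact ⟨h1, fun j => this ▸ h2 j⟩
    · rintro ⟨h1, h2⟩
      refine ⟨h1, Y x, h2, fun k => ?_⟩
      have e : rows b I *ᵥ Y x = fun k => sg (eps k) * lam (b (I k) ⬝ᵥ x) := by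
        simp only [Y]
        rw [Matrix.mulVec_mulVec, Matrix.mul_nonsing_inv _ hu, Matrix.one_mulVec]
      exact congrFun e k
  rw [this, ofPred_forall, ofPred_forall]
  refine (isClosed_iInter fun j => isClosed_le ?_ continuous_const).inter
    (isClosed_iInter fun j => isClosed_le ?_ ?_)
  · unfold dotProduct
    fun_prop
  · unfold dotProduct
    fun_prop
  · unfold dotProduct
    fun_prop

theorem dot_le {x y : Fin n → ℝ} {I : Fin n → Fin N} {eps : Fin n → Bool} {c : Fin n → ℝ}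
    (hy : ∀ j, |b j ⬝ᵥ y| ≤ lam (b j ⬝ᵥ x)) (k : Fin n) (hc : 0 ≤ c k) :
    c k * (sg (eps k) * (b (I k) ⬝ᵥ y)) ≤ c k * lam (b (I k) ⬝ᵥ x) := by
  refine mul_le_mul_of_nonneg_left ((le_abs_self _).trans ?_) hc
  rw [abs_mul, abs_sg, one_mul]
  exact hy _

theorem dot_sum (I : Fin n → Fin N) (eps : Fin n → Bool) (c y : Fin n → ℝ) :
    (∑ k, c k • sg (eps k) • b (I k)) ⬝ᵥ y = ∑ k, c k * (sg (eps k) * (b (I k) ⬝ᵥ y)) := by
  rw [sum_dotProduct]
  simp only [smul_dotProduct, smul_eq_mul]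

theorem active_of_mem {x y y' : Fin n → ℝ} {I J : Fin n → Fin N} {eps del : Fin n → Bool}
    {c d : Fin n → ℝ} (hc : ∀ k, 0 < c k) (hd : ∀ k, 0 < d k)
    (e : ∑ k, c k • sg (eps k) • b (I k) = ∑ k, d k • sg (del k) • b (J k))
    (hy : ∀ j, |b j ⬝ᵥ y| ≤ lam (b j ⬝ᵥ x)) (hy' : ∀ j, |b j ⬝ᵥ y'| ≤ lam (b j ⬝ᵥ x))
    (ay : ∀ k, b (I k) ⬝ᵥ y = sg (eps k) * lam (b (I k) ⬝ᵥ x))
    (ay' : ∀ k, b (J k) ⬝ᵥ y' = sg (del k) * lam (b (J k) ⬝ᵥ x)) (k : Fin n) :
    sg (eps k) * (b (I k) ⬝ᵥ y') = lam (b (I k) ⬝ᵥ x) := by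
  have e1 := congrArg (· ⬝ᵥ y) e
  have e2 := congrArg (· ⬝ᵥ y') e
  simp only [dot_sum] at e1 e2
  have a1 : ∑ k, c k * (sg (eps k) * (b (I k) ⬝ᵥ y)) = ∑ k, c k * lam (b (I k) ⬝ᵥ x) :=
    Finset.sum_congr rfl fun k _ => by rw [ay k, ← mul_assoc (sg _), sg_sq, one_mul]
  have a2 : ∑ k, d k * (sg (del k) * (b (J k) ⬝ᵥ y')) = ∑ k, d k * lam (b (J k) ⬝ᵥ x) :=
    Finset.sum_congr rfl fun k _ => by rw [ay' k, ← mul_assoc (sg _), sg_sq, one_mul]
  have l1 : ∑ k, d k * (sg (del k) * (b (J k) ⬝ᵥ y)) ≤ ∑ k, d k * lam (b (J k) ⬝ᵥ x) :=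
    Finset.sum_le_sum fun k _ => dot_le hy k (hd k).le
  have l2 : ∀ k ∈ Finset.univ,
      c k * (sg (eps k) * (b (I k) ⬝ᵥ y')) ≤ c k * lam (b (I k) ⬝ᵥ x) :=
    fun k _ => dot_le hy' k (hc k).le
  have l3 := Finset.sum_le_sum l2
  have e3 : ∑ k, c k * (sg (eps k) * (b (I k) ⬝ᵥ y')) = ∑ k, c k * lam (b (I k) ⬝ᵥ x) := by
    linarith
  have := (Finset.sum_eq_sum_iff_of_le l2).1 e3 k (Finset.mem_univ k)
  exact mul_left_cancel₀ (hc k).ne' this

theorem eq_of_mem_SmpB {x v : Fin n → ℝ} (hx : Gen lam b x) {I J : Fin n ↪o Fin N}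
    {eps del : Fin n → Bool} (hI : (rows b I).det ≠ 0) (hJ : (rows b J).det ≠ 0)
    (fI : x ∈ Feas lam b I eps) (fJ : x ∈ Feas lam b J del) (vI : v ∈ SmpB b I eps)
    (vJ : v ∈ SmpB b J del) : I = J ∧ eps = del := by
  obtain ⟨hK, y, hy, ay⟩ := fI
  obtain ⟨-, y', hy', ay'⟩ := fJ
  obtain ⟨c, hc, ec⟩ := mem_SmpB.1 vI
  obtain ⟨d, hd, ed⟩ := mem_SmpB.1 vJ
  have A1 := active_of_mem hc.1 hd.1 (ec.symm.trans ed) hy hy' ay ay'
  have A2 := active_of_mem hd.1 hc.1 (ed.symm.trans ec) hy' hy ay' ay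
  have habs : ∀ {e : Bool} {t l : ℝ}, 0 ≤ l → sg e * t = l → |t| = l := by
    intro e t l hl h
    rw [← abs_of_nonneg hl, ← h, abs_mul, abs_sg, one_mul]
  have hnn : ∀ j, 0 ≤ lam (b j ⬝ᵥ x) := fun j => (abs_nonneg _).trans (hy j)
  have r1 : ∀ k, ∃ k', J k' = I k := fun k => by
    by_contra hne
    push Not at hne
    exact hx.2 J del y' hJ ay' (I k) hne (hK _) (habs (hnn _) (A1 k))
  have r2 : ∀ k, ∃ k', I k' = J k := fun k => by
    by_contra hne
    push Not at hne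
    exact hx.2 I eps y hI ay (J k) hne (hK _) (habs (hnn _) (A2 k))
  have hIJ : I = J := by
    rw [← OrderEmbedding.range_inj]
    ext j
    constructor
    · rintro ⟨k, rfl⟩
      exact r1 k
    · rintro ⟨k, rfl⟩
      exact r2 k
  subst hIJ
  refine ⟨rfl, funext fun k => sg_inj ?_⟩
  have h1 := A1 k
  rw [ay' k, ← mul_assoc] at h1
  have h2 : sg (eps k) * sg (del k) = 1 := by
    have := hx.1 (I k) (hK _)
    exact mul_right_cancel₀ this (h1.trans (one_mul _).symm)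
  calc sg (eps k) = sg (eps k) * (sg (del k) * sg (del k)) := by rw [sg_sq, mul_one]
    _ = sg (del k) := by rw [← mul_assoc, h2, one_mul]

open Classical in
theorem sum_le_volume {x : Fin n → ℝ} (hx : Gen lam b x) {S : Set (Fin n → ℝ)}
    (hS : ∀ (I : Fin n ↪o Fin N) (eps : Fin n → Bool), (rows b I).det ≠ 0 →
      x ∈ Feas lam b I eps → SmpB b I eps ⊆ S) :
    ∑ p : (Fin n ↪o Fin N) × (Fin n → Bool), (Feas lam b p.1 p.2).indicator
      (fun _ => ENNReal.ofReal |(rows b p.1).det| * volume (Dl n)) x ≤ volume S := by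
  let T : Finset ((Fin n ↪o Fin N) × (Fin n → Bool)) :=
    Finset.univ.filter fun p => (rows b p.1).det ≠ 0 ∧ x ∈ Feas lam b p.1 p.2
  have hT : ∀ p, p ∈ T ↔ (rows b p.1).det ≠ 0 ∧ x ∈ Feas lam b p.1 p.2 := fun p => by simp [T]
  have h1 : ∑ p : (Fin n ↪o Fin N) × (Fin n → Bool), (Feas lam b p.1 p.2).indicator
      (fun _ => ENNReal.ofReal |(rows b p.1).det| * volume (Dl n)) x =
      ∑ p ∈ T, volume (SmpB b p.1 p.2) := by
    rw [← Finset.sum_subset (Finset.subset_univ T)]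
    · refine Finset.sum_congr rfl fun p hp => ?_
      rw [indicator_of_mem ((hT p).1 hp).2, volume_SmpB]
    · intro p _ hp
      rw [hT, not_and_or, not_not] at hp
      rcases hp with hp | hp
      · simp [indicator, hp]
      · rw [indicator_of_notMem hp]
  rw [h1, ← measure_biUnion_finset]
  · refine measure_mono (iUnion₂_subset fun p hp => hS p.1 p.2 ((hT p).1 hp).1 ((hT p).1 hp).2)
  · intro p hp q hq hpq
    rw [Finset.mem_coe, hT] at hp hq
    refine Set.disjoint_left.2 fun v vp vq => hpq ?_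
    have := eq_of_mem_SmpB hx hp.1 hq.1 hp.2 hq.2 vp vq
    exact Prod.ext this.1 this.2
  · exact fun p hp => (isOpen_SmpB ((hT p).1 hp).1 _).measurableSet

theorem sum_le_volume_prod (h : Profile lam) (hb : ∀ᵐ x : Fin n → ℝ, Gen lam b x)
    {U : Set ((Fin n → ℝ) × (Fin n → ℝ))} (hU : MeasurableSet U)
    (hS : ∀ (I : Fin n ↪o Fin N) (eps : Fin n → Bool), (rows b I).det ≠ 0 →
      ∀ x ∈ Feas lam b I eps, ∀ v ∈ SmpB b I eps, (x, v) ∈ U) :
    (∑ I : Fin n ↪o Fin N, ∑ eps : Fin n → Bool,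
      ENNReal.ofReal |(rows b I).det| * volume (Feas lam b I eps)) * volume (Dl n) ≤
      volume U := by
  have key : ∀ p : (Fin n ↪o Fin N) × (Fin n → Bool),
      (Measurable ((Feas lam b p.1 p.2).indicator
        (fun _ => ENNReal.ofReal |(rows b p.1).det| * volume (Dl n)))) ∧
      ∫⁻ x, (Feas lam b p.1 p.2).indicator
        (fun _ => ENNReal.ofReal |(rows b p.1).det| * volume (Dl n)) x =
      ENNReal.ofReal |(rows b p.1).det| * volume (Feas lam b p.1 p.2) * volume (Dl n) := by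
    intro p
    by_cases hp : (rows b p.1).det = 0
    · simp [hp]
    · have hm := (isClosed_Feas h hp p.2).measurableSet
      refine ⟨measurable_const.indicator hm, ?_⟩
      rw [lintegral_indicator_const hm]
      ring
  rw [Measure.volume_eq_prod, Measure.prod_apply hU, ← Fintype.sum_prod_type', Finset.sum_mul]
  simp only [← (key _).2]
  rw [← lintegral_finsetSum _ fun p _ => (key p).1]
  refine lintegral_mono_ae ?_
  filter_upwards [hb] with x hx
  exact sum_le_volume hx fun I eps hI hF v hv => hS I eps hI x hF v hv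

theorem le_volume_prod (h : Profile lam) (hA : Input lam n)
    (hsp : ∀ x : Fin n → ℝ, (∀ j, b j ⬝ᵥ x = 0) → x = 0) (hb : ∀ᵐ x : Fin n → ℝ, Gen lam b x)
    {U : Set ((Fin n → ℝ) × (Fin n → ℝ))} (hU : MeasurableSet U)
    (hS : ∀ (I : Fin n ↪o Fin N) (eps : Fin n → Bool), (rows b I).det ≠ 0 →
      ∀ x ∈ Feas lam b I eps, ∀ v ∈ SmpB b I eps, (x, v) ∈ U) :
    ENNReal.ofReal (4 ^ n / n.factorial) ≤ volume U := by
  refine le_trans ?_ (sum_le_volume_prod h hb hU hS)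
  have e : ENNReal.ofReal (4 ^ n / n.factorial) = 4 ^ n * ENNReal.ofReal (1 / n.factorial) := by
    rw [div_eq_mul_one_div, ENNReal.ofReal_mul (by positivity), ENNReal.ofReal_pow (by norm_num)]
    simp
  rw [e]
  exact mul_le_mul' (hA N b hsp) (le_volume_Dl n)

end Vale.Agent.P248Z.Geo
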