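import Vale.Agent.P248Z.Geo.Defs
import Mathlib.MeasureTheory.Measure.Lebesgue.VolumeOfBalls
import Mathlib.LinearAlgebra.Matrix.NonsingularInverse
import Mathlib.LinearAlgebra.Matrix.ToLinearEquiv

/-!
# P248, geometric block: volumes of simplices with a vertex at the origin
-/

open MeasureTheory Matrix Set

namespace Vale.Agent.P248Z.Geo

/-- The open standard simplex with a vertex at the origin. -/
def Dl (n : ℕ) : Set (Fin n → ℝ) := {c | (∀ k, 0 < c k) ∧ ∑ k, c k < 1}

/-- The open simplex spanned by the origin and the rows of `M`. -/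
def Smp {n : ℕ} (M : Matrix (Fin n) (Fin n) ℝ) : Set (Fin n → ℝ) :=
  {v | ∃ c ∈ Dl n, v = ∑ k, c k • M k}

theorem isOpen_Dl (n : ℕ) : IsOpen (Dl n) := by
  have h1 : IsOpen {c : Fin n → ℝ | ∀ k, 0 < c k} := by
    rw [ofPred_forall]
    exact isOpen_iInter_of_finite fun k => isOpen_lt continuous_const (continuous_apply k)
  have h2 : IsOpen {c : Fin n → ℝ | ∑ k, c k < 1} :=
    isOpen_lt (by fun_prop) continuous_const
  exact h1.inter h2

theorem Smp_eq_image {n : ℕ} (M : Matrix (Fin n) (Fin n) ℝ) :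
    Smp M = Matrix.toLin' Mᵀ '' Dl n := by
  ext v
  have key : ∀ c : Fin n → ℝ, Matrix.toLin' Mᵀ c = ∑ k, c k • M k := by
    intro c
    rw [Matrix.toLin'_apply, Matrix.mulVec_transpose, Matrix.vecMul_eq_sum]
  constructor
  · rintro ⟨c, hc, rfl⟩
    exact ⟨c, hc, key c⟩
  · rintro ⟨c, hc, rfl⟩
    exact ⟨c, hc, key c⟩

theorem volume_Smp {n : ℕ} (M : Matrix (Fin n) (Fin n) ℝ) :
    volume (Smp M) = ENNReal.ofReal |M.det| * volume (Dl n) := by
  rw [Smp_eq_image, Measure.addHaar_image_linearMap, LinearMap.det_toLin', Matrix.det_transpose]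

theorem isOpen_Smp {n : ℕ} {M : Matrix (Fin n) (Fin n) ℝ} (h : M.det ≠ 0) : IsOpen (Smp M) := by
  rw [Smp_eq_image]
  have hd : LinearMap.det (Matrix.toLin' Mᵀ) ≠ 0 := by
    rwa [LinearMap.det_toLin', Matrix.det_transpose]
  exact ((Matrix.toLin' Mᵀ).equivOfDetNeZero hd).toContinuousLinearEquiv.toHomeomorph.isOpenMap
    _ (isOpen_Dl n)

theorem abs_det_sg {n : ℕ} (eps : Fin n → Bool) (M : Matrix (Fin n) (Fin n) ℝ) :
    |(Matrix.of fun k => sg (eps k) • M k).det| = |M.det| := by
  have : (Matrix.of fun k => sg (eps k) • M k) = Matrix.diagonal (fun k => sg (eps k)) * M := by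
    ext k l
    simp [Matrix.diagonal_mul]
  rw [this, Matrix.det_mul, Matrix.det_diagonal, abs_mul, Finset.abs_prod]
  simp [abs_sg]

theorem volume_cross (n : ℕ) :
    volume {x : Fin n → ℝ | ∑ i, |x i| < 1} = ENNReal.ofReal (2 ^ n / n.factorial) := by
  have h := MeasureTheory.volume_sum_rpow_lt_one (Fin n) (p := 1) le_rfl
  simp only [Real.rpow_one, div_one, Fintype.card_fin] at h
  rw [h, Real.Gamma_nat_eq_factorial]
  have h2 : Real.Gamma (1 + 1) = 1 := by
    have := Real.Gamma_nat_eq_factorial 1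
    simpa using this
  rw [h2, mul_one]

theorem le_volume_Dl (n : ℕ) : ENNReal.ofReal (1 / n.factorial) ≤ volume (Dl n) := by
  have hsub : {x : Fin n → ℝ | ∑ i, |x i| < 1} ≤ᵐ[volume]
      (⋃ eps : Fin n → Bool, Smp (Matrix.of fun k => sg (eps k) • (1 : Matrix _ _ ℝ) k) :
        Set (Fin n → ℝ)) := by
    have hne : ∀ᵐ x : Fin n → ℝ, ∀ i, x i ≠ 0 :=
      ae_all_iff.2 fun i => Measure.ae_eval_ne _ i 0
    filter_upwards [hne] with x hx h1
    refine mem_iUnion.2 ⟨fun i => decide (0 < x i), fun i => |x i|,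
      ⟨fun i => abs_pos.2 (hx i), h1⟩, ?_⟩
    funext l
    simp only [Finset.sum_apply, Pi.smul_apply, Matrix.of_apply, smul_eq_mul, Matrix.one_apply]
    rw [Finset.sum_eq_single l]
    · rcases lt_or_gt_of_ne (hx l) with h | h
      · simp [sg, not_lt.2 h.le, abs_of_neg h]
      · simp [sg, h, abs_of_pos h]
    · intro k _ hk
      simp [hk]
    · simp
  have h1 := measure_mono_ae hsub
  rw [volume_cross] at h1
  have h2 := h1.trans (measure_iUnion_fintype_le _ _)
  simp only [volume_Smp, abs_det_sg, Matrix.det_one, abs_one, ENNReal.ofReal_one, one_mul,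
    Finset.sum_const, Finset.card_univ, Fintype.card_fun, Fintype.card_bool, Fintype.card_fin,
    nsmul_eq_mul] at h2
  have h3 : ENNReal.ofReal (2 ^ n / n.factorial) =
      ((2 ^ n : ℕ) : ENNReal) * ENNReal.ofReal (1 / n.factorial) := by
    rw [← ENNReal.ofReal_natCast, ← ENNReal.ofReal_mul (by positivity)]
    congr 1
    push_cast
    ring
  rw [h3] at h2
  exact (ENNReal.mul_le_mul_iff_right (by simp) (by simp)).1 h2

end Vale.Agent.P248Z.Geo
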